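import Vale.Agent.P011.D4Y.H691.FinX
import Vale.Agent.P011N.D1.D4Y.Defs
import Vale.Agent.P011N.D1.D4Y.H691.Na

/-!
Version for big subgroups of `P011.D4Y.H691.FinX`.
-/

open NumberField Topology

set_option linter.unusedSectionVars false

namespace Vale.Agent.P011.D4Y

open Vale.Agent.P011.MPQ Vale.Agent.P011.D4 Vale.Agent.P011.D4.Oct Vale.Agent.P011.E6

open Vale.Agent.P011.D4X Vale.Agent.P011.D4X.H691

section fin

variable {k L E : Type} [Field k] [NumberField k] [Field L] [NumberField L] [Field E]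
  [Algebra k L] [Algebra k E] [Algebra L E]
  [IsScalarTower k L E] [NeZero (2 : E)] {ρ σ ι : E ≃ₐ[k] E} {α : E}
  {a b c : kˣ} {q : Lˣ}

variable (H : HyI ρ σ ι α a b c q)

include H

/-- The elements of class one of `stabsP`. -/
theorem mem_NA_of_stabsPB
    (hle : ∀ {b' c' : kˣ} {j l : Oct a b c} (h : Trip a b' c' gi j l) {z : ATI ρ σ ι α a b c q},
      z ∈ stabI ρ σ ι α q h → kapI z ∈ PosC k L a → z ∈ H.NAB ⊔ stab0I ρ σ ι α a b c q)
    (hstabN : ∀ {z : ATI ρ σ ι α a b c q}, z ∈ stab0I ρ σ ι α a b c q → kapI z ∈ SqL k L →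
      IsNIB ρ σ ι α a b c q z)
    {z : ATI ρ σ ι α a b c q} (hz : z ∈ stabsPI (PosC k L a) ρ σ ι α a b c q)
    (hκ : kapI z ∈ SqL k L) : z ∈ H.NAB := by
  have h1 : stabsPI (PosC k L a) ρ σ ι α a b c q ≤ H.NAB ⊔ stab0I ρ σ ι α a b c q := by
    rw [stabsPI, Subgroup.closure_le]
    rintro z ⟨hP, b', c', j, l, h, hz⟩
    exact hle h hz hP
  obtain ⟨n, hn1, s, hs, rfl⟩ := Subgroup.mem_sup_of_normal_left.1 (h1 hz)
  have hN : kapI n ∈ SqL k L := H.kap_mem_of_NAB hn1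
  rw [kapI_mul] at hκ
  have h2 : kapI s ∈ SqL k L := (Subgroup.mul_mem_cancel_left _ hN).1 hκ
  exact H.NAB.mul_mem hn1 (hstabN hs h2)

/-- The elements of `GTI` which lie in `stabsP` lie in the finite residual. -/
theorem mem_RsI_of_stabsPB
    (hle : ∀ {b' c' : kˣ} {j l : Oct a b c} (h : Trip a b' c' gi j l) {z : ATI ρ σ ι α a b c q},
      z ∈ stabI ρ σ ι α q h → kapI z ∈ PosC k L a → z ∈ H.NAB ⊔ stab0I ρ σ ι α a b c q)
    (hstabN : ∀ {z : ATI ρ σ ι α a b c q}, z ∈ stab0I ρ σ ι α a b c q → kapI z ∈ SqL k L →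
      IsNIB ρ σ ι α a b c q z)
    {g : OctL E a b c ≃ₗ[E] OctL E a b c} (hg : g ∈ GTI ρ σ ι α a b c q)
    (h : (⟨g, GTI_le_ATI hg⟩ : ATI ρ σ ι α a b c q) ∈ stabsPI (PosC k L a) ρ σ ι α a b c q) :
    g ∈ RsIB ρ σ ι α a b c q := by
  refine mem_of_isNIB H g hg (mem_NA_of_stabsPB H hle hstabN h ?_)
  rw [kapI_of_GTI hg]
  exact Subgroup.one_mem _

end fin

end Vale.Agent.P011.D4Y
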