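import Vale.Agent.P011.D4Y.H691.Tr
import Vale.Agent.P011N.D1.Base
import Vale.Agent.P011N.D1.D4Y.Defs
import Vale.Agent.P011N.D1.D4Y.H691.Na

/-!
Version for big subgroups of `P011.D4Y.H691.Tr`.
-/

open NumberField Topology

set_option linter.unusedSectionVars false

namespace Vale.Agent.P011.D4Y

open Vale.Agent.P011.MPQ Vale.Agent.P011.D4 Vale.Agent.P011.D4.Oct Vale.Agent.P011.E6

open Vale.Agent.P011.D4X Vale.Agent.P011.D4X.H691

variable {k L E : Type} [Field k] [Field L] [Field E] [Algebra k L] [Algebra k E] [Algebra L E]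
  [IsScalarTower k L E] {ρ σ ι : E ≃ₐ[k] E} {α : E}
  {a b c : kˣ} {q : Lˣ}

variable [NeZero (2 : E)] {b' c' : kˣ} {j l : Oct a b c} (h : Trip a b' c' gi j l)

theorem cj_mem_RsIB {g : OctL E a b' c' ≃ₗ[E] OctL E a b' c'} (hg : g ∈ RsIB ρ σ ι α a b' c' q) :
    cjE (tripO E h) g ∈ RsIB ρ σ ι α a b c q := by
  obtain ⟨h1, h2⟩ := mem_RsIB.1 hg
  exact mem_RsIB.2 ⟨_, fres_mapB (cjGI ρ σ ι α q h) h2⟩

theorem cjAI_isNIB {z : ATI ρ σ ι α a b' c' q} (hz : IsNIB ρ σ ι α a b' c' q z) :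
    IsNIB ρ σ ι α a b c q (cjAI ρ σ ι α q h z) := by
  obtain ⟨l', g, hg, h1⟩ := hz
  refine ⟨l', _, cj_mem_RsIB h hg, fun x => ?_⟩
  change cjE (tripO E h) z.1 x = _
  obtain ⟨x, rfl⟩ := (tripO E h).surjective x
  rw [cj_apply, cj_apply, h1, map_smul]

end Vale.Agent.P011.D4Y
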