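import Vale.Agent.P011.D4Y.H691.StabOf
import Vale.Agent.P011N.D1.D4Y.Defs
import Vale.Agent.P011N.D1.D4Y.H691.Na
import Vale.Agent.P011N.D1.D4Y.H691.StabN
import Vale.Agent.P011N.D1.D4Y.H691.Tr

/-!
Version for big subgroups of `P011.D4Y.H691.StabOf`.
-/

open NumberField Topology

set_option linter.unusedSectionVars false

namespace Vale.Agent.P011.D4Y

open Vale.Agent.P011.MPQ Vale.Agent.P011.D4 Vale.Agent.P011.D4.Oct Vale.Agent.P011.E6

open Vale.Agent.P011.D4X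

variable {k L E : Type} [Field k] [Field L] [Field E]
  [Algebra k L] [Algebra k E] [Algebra L E]
  [IsScalarTower k L E] [NeZero (2 : k)] [NeZero (2 : E)] {ρ σ ι : E ≃ₐ[k] E} {α : E}
  {a b c : kˣ} {q : Lˣ} (H : HyI ρ σ ι α a b c q)

include H

/-- `stab_N` for the standard involution, from `mix_mem`. -/
theorem stab0_NIB
    (hmix : ∀ (x0 : Qt a b) (x : Qt (up L a) (q * up L b)) (s : kˣ), nrd x0 = s →
      nrd x = algebraMap k L (s : k) → ∀ g : OctL E a b c ≃ₗ[E] OctL E a b c,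
      (∀ y : OctL E a b c, g y = (algebraMap k E (s : k))⁻¹ • zFI ρ α q x0 x (s ^ 2) y) →
        g ∈ RsIB ρ σ ι α a b c q)
    {z : ATI ρ σ ι α a b c q} (hz0 : z ∈ stab0I ρ σ ι α a b c q) (hcl : kapI z ∈ SqL k L) :
    IsNIB ρ σ ι α a b c q z :=
  stab0_NI_ofB H (fun _ hz => cent H hz) (exists_zI H) hmix hz0 hcl

/-- `stab_N`, from `mix_mem` for the parameters `a, b', c'`. -/
theorem stab_NI_ofB {b' c' : kˣ} {j l : Oct a b c} (h : Trip a b' c' gi j l)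
    (hmix : ∀ (x0 : Qt a b') (x : Qt (up L a) (q * up L b')) (s : kˣ), nrd x0 = s →
      nrd x = algebraMap k L (s : k) → ∀ g : OctL E a b' c' ≃ₗ[E] OctL E a b' c',
      (∀ y : OctL E a b' c', g y = (algebraMap k E (s : k))⁻¹ • zFI ρ α q x0 x (s ^ 2) y) →
        g ∈ RsIB ρ σ ι α a b' c' q)
    {z : ATI ρ σ ι α a b c q} (hz : z ∈ stabI ρ σ ι α q h) {κ : Lˣ} (hκ : IsKapI ρ z.1 κ)
    (hcl : κ ∈ SqL k L) : IsNIB ρ σ ι α a b c q z := by
  obtain ⟨z', hz', rfl⟩ := exists_of_mem_stabI h hz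
  refine cjAI_isNIB h (stab0_NIB (hyTripI H h) hmix hz' ?_)
  rw [← kapI_cjAI h, kapI_eq hκ]
  exact hcl

end Vale.Agent.P011.D4Y
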